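import Vale.Agent.P359.Stmt

/-!
P359: the eigenvalues of `H_{N,Q}` on the fermionic space, counted with multiplicity
(on top of `Vale/Agent/P359/Stmt.lean`).
-/

namespace Vale.Agent.P359.Levels

open Vale.Agent.P359

/-- `E 0 ≤ E 1 ≤ ⋯ ≤ E (D - 1)` is the list of the eigenvalues of `H = ∑_{i<j} P_{ij}` on the
fermionic space `⋀^N U_Q`, counted with multiplicity: there is an orthonormal basis
`Ψ 0, …, Ψ (D - 1)` of the fermionic space with `H (Ψ k) = E k • Ψ k` -/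
def IsLevels (N : ℕ) {Q : ℕ}
    (P : Matrix (Fin (Q + 1) × Fin (Q + 1)) (Fin (Q + 1) × Fin (Q + 1)) ℂ)
    {D : ℕ} (E : Fin D → ℝ) : Prop :=
  Monotone E ∧ ∃ Ψ : Fin D → (Fin N → Fin (Q + 1)) → ℂ,
    (∀ k, IsFermionic (Ψ k)) ∧ (∀ j k, braket (Ψ j) (Ψ k) = if j = k then 1 else 0) ∧
    (∀ Φ : (Fin N → Fin (Q + 1)) → ℂ, IsFermionic Φ → Φ = ∑ k, braket (Ψ k) Φ • Ψ k) ∧
    ∀ k, pairSum P (Ψ k) = ((E k : ℝ) : ℂ) • Ψ k

/-- the number of the zero-energy states: the binomial coefficient of `Q - 3 (N - 1) + N` over `N`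
at and above the Laughlin flux `3 (N - 1)`, and zero below it -/
def zeroCount (N Q : ℕ) : ℕ :=
  if 3 * (N - 1) ≤ Q then Nat.choose (Q - 3 * (N - 1) + N) N else 0

end Vale.Agent.P359.Levels
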