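import Vale.Agent.P359.H737.Op
import Mathlib.Data.Sym.Card

/-!
P359: the dimension of the fermionic space and of the space of the zero-energy states.
-/

set_option linter.all false

namespace Vale.Agent.P359.Levels

open Finset MvPolynomial Vale.Agent.P359 Vale.Agent.P359.AllFlux

/-- monotone tuples with the same values are equal -/
theorem mono_unique {α : Type*} [LinearOrder α] {n : ℕ} {f g : Fin n → α} (hf : Monotone f)
    (hg : Monotone g) (h : (univ : Finset (Fin n)).val.map f = (univ : Finset (Fin n)).val.map g) :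
    f = g := by
  rw [Fin.univ_val_map, Fin.univ_val_map, Multiset.coe_eq_coe] at h
  exact List.ofFn_injective (List.Perm.eq_of_sortedLE hf.sortedLE_ofFn hg.sortedLE_ofFn h)

/-- tuples with the same values differ by a permutation -/
theorem exists_perm {α : Type*} [LinearOrder α] {n : ℕ} {f g : Fin n → α}
    (h : (univ : Finset (Fin n)).val.map f = (univ : Finset (Fin n)).val.map g) :
    ∃ σ : Equiv.Perm (Fin n), g = f ∘ σ := by
  have hc : ∀ (u : Fin n → α) (σ : Equiv.Perm (Fin n)),
      (univ : Finset (Fin n)).val.map (u ∘ σ) = (univ : Finset (Fin n)).val.map u := by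
    intro u σ
    rw [← Multiset.map_map]
    congr 1
    have := congrArg Finset.val (Finset.map_univ_equiv σ)
    rw [Finset.map_val] at this
    exact this
  have h1 : f ∘ Tuple.sort f = g ∘ Tuple.sort g :=
    mono_unique (Tuple.monotone_sort f) (Tuple.monotone_sort g) (by rw [hc, hc, h])
  refine ⟨(Tuple.sort g).symm.trans (Tuple.sort f), ?_⟩
  funext k
  have h2 := congrFun h1 ((Tuple.sort g).symm k)
  simp only [Function.comp_apply, Equiv.apply_symm_apply] at h2
  simp only [Function.comp_apply, Equiv.trans_apply]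
  exact h2.symm

variable {N Q : ℕ}

/-- a fermionic tensor vanishes at tuples which are not injective -/
theorem ferm_zero {Φ : Tensors N Q} (hΦ : Φ ∈ Fermions N Q) {x : Fin N → Fin (Q + 1)}
    (hx : ¬ Function.Injective x) : Φ x = 0 := by
  have h1 := IsAnti.eq_zero (re_anti hΦ) hx
  have h2 := IsAnti.eq_zero (im_anti hΦ) hx
  exact Complex.ext h1 h2

/-- evaluation at the increasing tuples -/
noncomputable def evF (N Q : ℕ) :
    Fermions N Q →ₗ[ℂ] ({S : Finset (Fin (Q + 1)) // S.card = N} → ℂ) where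
  toFun Φ := fun S => Φ.1 (S.1.orderEmbOfFin S.2)
  map_add' := fun _ _ => rfl
  map_smul' := fun _ _ => rfl

theorem evF_injective : Function.Injective (evF N Q) := by
  rw [← LinearMap.ker_eq_bot, LinearMap.ker_eq_bot']
  intro Φ h
  apply Subtype.ext
  ext x
  show Φ.1 x = 0
  by_cases hx : Function.Injective x
  · have h1 : (univ.image x).card = N := by
      rw [Finset.card_image_of_injective _ hx, Finset.card_univ, Fintype.card_fin]
    have h2 : StrictMono (x ∘ Tuple.sort x) :=
      (Tuple.monotone_sort x).strictMono_of_injective (hx.comp (Tuple.sort x).injective)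
    have h3 : x ∘ Tuple.sort x = (univ.image x).orderEmbOfFin h1 :=
      Finset.orderEmbOfFin_unique h1 (fun k => Finset.mem_image_of_mem _ (Finset.mem_univ _)) h2
    have h4 : Φ.1 (x ∘ Tuple.sort x) = 0 := by
      rw [h3]
      exact congrFun h ⟨_, h1⟩
    have h5 := Φ.2 (Tuple.sort x) x
    rw [h4] at h5
    rcases mul_eq_zero.1 h5.symm with h6 | h6
    · exfalso
      rcases Int.units_eq_one_or (Equiv.Perm.sign (Tuple.sort x)) with h7 | h7 <;>
        rw [h7] at h6 <;> norm_num at h6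
    · exact h6
  · exact ferm_zero Φ.2 hx

theorem evF_surjective : Function.Surjective (evF N Q) := by
  classical
  intro F
  obtain ⟨G, hG⟩ : ∃ G : ({S : Finset (Fin (Q + 1)) // S.card = N} → ℝ) → Fock (Q + 1),
      G = fun f => WithLp.toLp 2 fun S => if h : S.card = N then f ⟨S, h⟩ else 0 := ⟨_, rfl⟩
  have hG1 : ∀ f S (h : S.card = N), G f S = f ⟨S, h⟩ := by
    intro f S h
    rw [hG]
    show (if h : S.card = N then f ⟨S, h⟩ else 0) = _
    rw [dif_pos h]
  have hG2 : ∀ f S, S.card ≠ N → G f S = 0 := by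
    intro f S h
    rw [hG]
    show (if h : S.card = N then f ⟨S, h⟩ else 0) = _
    rw [dif_neg h]
  obtain ⟨c, hc⟩ : ∃ c, c = Real.sqrt (N.factorial : ℝ) := ⟨_, rfl⟩
  obtain ⟨u, hu⟩ : ∃ u, u = fromFock N (G fun S => (F S).re) := ⟨_, rfl⟩
  obtain ⟨v, hv⟩ : ∃ v, v = fromFock N (G fun S => (F S).im) := ⟨_, rfl⟩
  have hua : IsAnti u := hu ▸ fromFock_anti _
  have hva : IsAnti v := hv ▸ fromFock_anti _
  refine ⟨⟨WithLp.toLp 2 fun x => (c : ℂ) * ((u x : ℂ) + (v x : ℂ) * Complex.I), ?_⟩, ?_⟩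
  · intro σ x
    show (c : ℂ) * ((u (x ∘ σ) : ℂ) + (v (x ∘ σ) : ℂ) * Complex.I) =
      ((Equiv.Perm.sign σ : ℤ) : ℂ) * ((c : ℂ) * ((u x : ℂ) + (v x : ℂ) * Complex.I))
    rw [hua σ x, hva σ x]
    push_cast
    ring
  · funext S
    show (c : ℂ) * ((u (S.1.orderEmbOfFin S.2) : ℂ) + (v (S.1.orderEmbOfFin S.2) : ℂ) * Complex.I)
      = F S
    have h1 : c * u (S.1.orderEmbOfFin S.2) = (F S).re := by
      have h := toFock_fromFock (G fun S => (F S).re) (fun S hS => hG2 _ S hS)
      have h' := congrArg (fun w : Fock (Q + 1) => w S.1) h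
      simp only at h'
      rw [toFock_apply _ S.1 S.2, ← hc, ← hu, hG1 _ S.1 S.2] at h'
      exact h'
    have h2 : c * v (S.1.orderEmbOfFin S.2) = (F S).im := by
      have h := toFock_fromFock (G fun S => (F S).im) (fun S hS => hG2 _ S hS)
      have h' := congrArg (fun w : Fock (Q + 1) => w S.1) h
      simp only at h'
      rw [toFock_apply _ S.1 S.2, ← hc, ← hv, hG1 _ S.1 S.2] at h'
      exact h'
    have h3 : (c : ℂ) * (u (S.1.orderEmbOfFin S.2) : ℂ) = ((F S).re : ℂ) := by
      rw [← h1]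
      push_cast
      ring
    have h4 : (c : ℂ) * (v (S.1.orderEmbOfFin S.2) : ℂ) = ((F S).im : ℂ) := by
      rw [← h2]
      push_cast
      ring
    rw [mul_add, ← mul_assoc, h3, h4]
    exact Complex.re_add_im _

/-- the dimension of the fermionic space -/
theorem finrank_fermions (N Q : ℕ) :
    Module.finrank ℂ (Fermions N Q) = Nat.choose (Q + 1) N := by
  rw [(LinearEquiv.ofBijective (evF N Q) ⟨evF_injective, evF_surjective⟩).finrank_eq,
    Module.finrank_fintype_fun_eq_card, Fintype.card_finset_len, Fintype.card_fin]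

/-! ### the zero-energy states -/

/-- the symmetric polynomial of degree at most `p` in each variable with given coefficients -/
noncomputable def symP (N p : ℕ) (c : Sym (Fin (p + 1)) N → ℂ) : MvPolynomial (Fin N) ℂ :=
  ∑ y : Fin N → Fin (p + 1), monomial (expn y) (c ⟨(univ : Finset (Fin N)).val.map y, by simp⟩)

theorem coeff_symP {N p : ℕ} (c : Sym (Fin (p + 1)) N → ℂ) (y : Fin N → Fin (p + 1)) :
    coeff (expn y) (symP N p c) = c ⟨(univ : Finset (Fin N)).val.map y, by simp⟩ := by
  rw [symP, coeff_sum, Finset.sum_eq_single y]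
  · rw [coeff_monomial, if_pos rfl]
  · intro z _ hz
    rw [coeff_monomial, if_neg]
    exact fun h => hz (expn_injective h)
  · intro h; exact absurd (Finset.mem_univ _) h

theorem degreeOf_symP {N p : ℕ} (c : Sym (Fin (p + 1)) N → ℂ) (k : Fin N) :
    degreeOf k (symP N p c) ≤ p := by
  rw [symP]
  refine (degreeOf_sum_le k _ _).trans ?_
  apply Finset.sup_le
  intro x _
  by_cases h : c ⟨(univ : Finset (Fin N)).val.map x, by simp⟩ = 0
  · rw [h]; simp
  · rw [degreeOf_monomial_eq _ _ h]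
    exact Nat.lt_succ_iff.mp (x k).2

theorem coeff_of_degree {N p : ℕ} {f : MvPolynomial (Fin N) ℂ} (hf : ∀ k, degreeOf k f ≤ p)
    {m : Fin N →₀ ℕ} (hm : coeff m f ≠ 0) : ∃ y : Fin N → Fin (p + 1), expn y = m := by
  refine exists_expn m fun k => ?_
  exact (monomial_le_degreeOf k (mem_support_iff.mpr hm)).trans (hf k)

theorem ext_of_degree {N p : ℕ} {f g : MvPolynomial (Fin N) ℂ} (hf : ∀ k, degreeOf k f ≤ p)
    (hg : ∀ k, degreeOf k g ≤ p) (h : ∀ y : Fin N → Fin (p + 1), coeff (expn y) f = coeff (expn y) g) :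
    f = g := by
  ext m
  by_cases h1 : coeff m f = 0
  · by_cases h2 : coeff m g = 0
    · rw [h1, h2]
    · obtain ⟨y, rfl⟩ := coeff_of_degree hg h2
      exact h y
  · obtain ⟨y, rfl⟩ := coeff_of_degree hf h1
    exact h y

theorem map_comp_perm {α : Type*} {n : ℕ} (u : Fin n → α) (σ : Equiv.Perm (Fin n)) :
    (univ : Finset (Fin n)).val.map (u ∘ σ) = (univ : Finset (Fin n)).val.map u := by
  rw [← Multiset.map_map]
  congr 1
  have := congrArg Finset.val (Finset.map_univ_equiv σ)
  rw [Finset.map_val] at this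
  exact this

theorem rename_degreeOf_le {N p : ℕ} {f : MvPolynomial (Fin N) ℂ} (hf : ∀ k, degreeOf k f ≤ p)
    (σ : Equiv.Perm (Fin N)) (k : Fin N) : degreeOf k (rename σ f) ≤ p := by
  obtain ⟨j, rfl⟩ := σ.surjective k
  rw [degreeOf_rename_of_injective σ.injective]
  exact hf j

theorem rename_symP {N p : ℕ} (c : Sym (Fin (p + 1)) N → ℂ) (σ : Equiv.Perm (Fin N)) :
    rename σ (symP N p c) = symP N p c := by
  refine ext_of_degree (p := p) (rename_degreeOf_le (degreeOf_symP c) σ) (degreeOf_symP c) ?_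
  intro y
  rw [← coeff_expn_comp, coeff_symP, coeff_symP]
  congr 1
  apply Subtype.ext
  exact map_comp_perm y σ

/-- the state with a given polynomial -/
noncomputable def stateOf (N Q : ℕ) (f : MvPolynomial (Fin N) ℂ) : Tensors N Q :=
  WithLp.toLp 2 fun x => coeff (expn x) f / ∏ i, rb Q (x i)

theorem prod_rb_ne {N Q : ℕ} (x : Fin N → Fin (Q + 1)) : ∏ i, rb Q (x i) ≠ 0 :=
  Finset.prod_ne_zero_iff.mpr fun i _ => rb_ne_zero _

theorem genPoly_stateOf {N Q : ℕ} {f : MvPolynomial (Fin N) ℂ} (hf : ∀ k, degreeOf k f ≤ Q) :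
    genPoly (stateOf N Q f) = f := by
  refine ext_of_degree (p := Q) (degreeOf_genPoly _) hf ?_
  intro y
  rw [coeff_genPoly]
  exact div_mul_cancel₀ _ (prod_rb_ne y)

theorem stateOf_genPoly {N Q : ℕ} (Φ : Tensors N Q) : stateOf N Q (genPoly Φ) = Φ := by
  ext x
  show coeff (expn x) (genPoly Φ) / ∏ i, rb Q (x i) = Φ x
  rw [coeff_genPoly, mul_div_assoc, div_self (prod_rb_ne x), mul_one]

theorem stateOf_fermion {N Q : ℕ} {f : MvPolynomial (Fin N) ℂ}
    (hf : ∀ σ : Equiv.Perm (Fin N), rename σ f = C (((Equiv.Perm.sign σ : ℤ) : ℂ)) * f) :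
    stateOf N Q f ∈ Fermions N Q := by
  intro σ x
  show coeff (expn (x ∘ σ)) f / ∏ i, rb Q ((x ∘ σ) i) =
    ((Equiv.Perm.sign σ : ℤ) : ℂ) * (coeff (expn x) f / ∏ i, rb Q (x i))
  have h2 : ∏ i, rb Q ((x ∘ σ) i) = ∏ i, rb Q (x i) := Equiv.prod_comp σ (fun i => rb Q (x i))
  rw [h2, coeff_expn_comp, hf, coeff_C_mul, mul_div_assoc]

theorem degreeOf_vand_mul {N p : ℕ} {q : MvPolynomial (Fin N) ℂ} (hq : ∀ k, degreeOf k q ≤ p)
    (k : Fin N) : degreeOf k (vand3 N * q) ≤ 3 * (N - 1) + p := by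
  refine (degreeOf_mul_le _ _ _).trans ?_
  rw [degreeOf_vand3]
  exact Nat.add_le_add_left (hq k) _

theorem vand_mul_state {N p : ℕ} (hQ : 1 ≤ 3 * (N - 1) + p) (c : Sym (Fin (p + 1)) N → ℂ) :
    stateOf N (3 * (N - 1) + p) (vand3 N * symP N p c) ∈ zeroSub N (3 * (N - 1) + p) := by
  have hF : stateOf N (3 * (N - 1) + p) (vand3 N * symP N p c) ∈
      Fermions N (3 * (N - 1) + p) := by
    refine stateOf_fermion fun σ => ?_
    rw [map_mul, rename_vand3, rename_symP, mul_assoc]
  refine ⟨hF, (pairNull_iff_dvd hQ hF).2 ?_⟩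
  rw [genPoly_stateOf (degreeOf_vand_mul (degreeOf_symP c))]
  exact dvd_mul_right _ _

theorem symP_add {N p : ℕ} (c d : Sym (Fin (p + 1)) N → ℂ) :
    symP N p (c + d) = symP N p c + symP N p d := by
  unfold symP
  rw [← sum_add_distrib]
  refine sum_congr rfl fun y _ => ?_
  exact map_add (monomial (expn y)) _ _

theorem symP_smul {N p : ℕ} (a : ℂ) (c : Sym (Fin (p + 1)) N → ℂ) :
    symP N p (a • c) = C a * symP N p c := by
  unfold symP
  rw [mul_sum]
  refine sum_congr rfl fun y _ => ?_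
  rw [C_mul_monomial]
  rfl

theorem stateOf_add {N Q : ℕ} (f g : MvPolynomial (Fin N) ℂ) :
    stateOf N Q (f + g) = stateOf N Q f + stateOf N Q g := by
  ext x
  show coeff (expn x) (f + g) / _ = coeff (expn x) f / _ + coeff (expn x) g / _
  rw [coeff_add, add_div]

theorem stateOf_smul {N Q : ℕ} (a : ℂ) (f : MvPolynomial (Fin N) ℂ) :
    stateOf N Q (C a * f) = a • stateOf N Q f := by
  ext x
  show coeff (expn x) (C a * f) / _ = a * (coeff (expn x) f / _)
  rw [coeff_C_mul, mul_div_assoc]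

/-- the parametrization of the zero-energy states by symmetric polynomials -/
noncomputable def zeroMap (N p : ℕ) (hQ : 1 ≤ 3 * (N - 1) + p) :
    (Sym (Fin (p + 1)) N → ℂ) →ₗ[ℂ] zeroSub N (3 * (N - 1) + p) where
  toFun c := ⟨stateOf N (3 * (N - 1) + p) (vand3 N * symP N p c), vand_mul_state hQ c⟩
  map_add' := by
    intro c d
    apply Subtype.ext
    show stateOf _ _ _ = stateOf _ _ _ + stateOf _ _ _
    rw [symP_add, mul_add, stateOf_add]
  map_smul' := by
    intro a c
    apply Subtype.ext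
    show stateOf _ _ _ = a • stateOf _ _ _
    rw [symP_smul, ← stateOf_smul]
    congr 1
    ring

theorem zeroMap_injective (N p : ℕ) (hQ : 1 ≤ 3 * (N - 1) + p) :
    Function.Injective (zeroMap N p hQ) := by
  rw [← LinearMap.ker_eq_bot, LinearMap.ker_eq_bot']
  intro c h
  have h1 : stateOf N (3 * (N - 1) + p) (vand3 N * symP N p c) = 0 := congrArg Subtype.val h
  have h2 := genPoly_stateOf (degreeOf_vand_mul (degreeOf_symP c))
  rw [h1] at h2
  have h3 : genPoly (0 : Tensors N (3 * (N - 1) + p)) = 0 := by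
    rw [genPoly]
    apply Finset.sum_eq_zero
    intro x _
    simp
  rw [h3] at h2
  have h4 : symP N p c = 0 := (mul_eq_zero.1 h2.symm).resolve_left (vand3_ne_zero N)
  funext s
  obtain ⟨m, hm⟩ := s
  obtain ⟨l, rfl⟩ := Quot.exists_rep m
  have hl : l.length = N := hm
  subst hl
  have h5 := coeff_symP c (fun i => l.get i)
  rw [h4, coeff_zero] at h5
  have h6 : (⟨Quot.mk _ l, hm⟩ : Sym (Fin (p + 1)) l.length) =
      ⟨(univ : Finset (Fin l.length)).val.map (fun i => l.get i), by simp⟩ := by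
    apply Subtype.ext
    show _ = (univ : Finset (Fin l.length)).val.map (fun i => l.get i)
    rw [Fin.univ_val_map, List.ofFn_get]
    rfl
  exact (congrArg c h6).trans h5.symm

theorem zeroMap_surjective (N p : ℕ) (hQ : 1 ≤ 3 * (N - 1) + p) :
    Function.Surjective (zeroMap N p hQ) := by
  rintro ⟨Φ, hF, hN⟩
  obtain ⟨q, hq⟩ := (pairNull_iff_dvd hQ hF).1 hN
  have hv := vand3_ne_zero N
  have hdeg : ∀ k, degreeOf k q ≤ p := by
    intro k
    by_cases hq0 : q = 0
    · rw [hq0]
      simp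
    · have h2 := degreeOf_genPoly Φ k
      rw [hq, degreeOf_mul_eq hv hq0, degreeOf_vand3] at h2
      omega
  have hsym : ∀ σ : Equiv.Perm (Fin N), rename σ q = q := by
    intro σ
    have h1 := rename_genPoly hF σ
    rw [hq, map_mul, rename_vand3, mul_assoc] at h1
    have h0 : C (((Equiv.Perm.sign σ : ℤ) : ℂ)) ≠ (0 : MvPolynomial (Fin N) ℂ) := by
      rcases Int.units_eq_one_or (Equiv.Perm.sign σ) with h | h <;> rw [h] <;> simp
    have h2 := mul_left_cancel₀ h0 h1
    exact mul_left_cancel₀ hv h2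
  have hco : ∀ (y : Fin N → Fin (p + 1)) (σ : Equiv.Perm (Fin N)),
      coeff (expn (y ∘ σ)) q = coeff (expn y) q := by
    intro y σ
    rw [coeff_expn_comp, hsym]
  have hex : ∀ s : Sym (Fin (p + 1)) N, ∃ y : Fin N → Fin (p + 1),
      s = ⟨(univ : Finset (Fin N)).val.map y, by simp⟩ := by
    rintro ⟨m, hm⟩
    obtain ⟨l, rfl⟩ := Quot.exists_rep m
    have hl : l.length = N := hm
    subst hl
    refine ⟨fun i => l.get i, ?_⟩
    apply Subtype.ext
    show _ = (univ : Finset (Fin l.length)).val.map (fun i => l.get i)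
    rw [Fin.univ_val_map, List.ofFn_get]
    rfl
  choose Y hY using hex
  refine ⟨fun s => coeff (expn (Y s)) q, ?_⟩
  apply Subtype.ext
  show stateOf N (3 * (N - 1) + p) (vand3 N * symP N p fun s => coeff (expn (Y s)) q) = Φ
  have h1 : symP N p (fun s => coeff (expn (Y s)) q) = q := by
    refine ext_of_degree (p := p) (degreeOf_symP _) hdeg ?_
    intro y
    rw [coeff_symP]
    have h2 := hY ⟨(univ : Finset (Fin N)).val.map y, by simp⟩
    have h3 := congrArg Subtype.val h2
    simp only at h3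
    obtain ⟨σ, hσ⟩ := exists_perm h3
    have h4 := hco y σ
    rw [← hσ] at h4
    exact h4
  rw [h1, ← hq, stateOf_genPoly]

/-- **the number of the zero-energy states** -/
theorem finrank_zeroSub (N Q : ℕ) (hQ : 1 ≤ Q) :
    Module.finrank ℂ (zeroSub N Q) = zeroCount N Q := by
  unfold zeroCount
  split_ifs with h
  · obtain ⟨p, rfl⟩ := Nat.exists_eq_add_of_le h
    rw [← (LinearEquiv.ofBijective (zeroMap N p hQ)
      ⟨zeroMap_injective N p hQ, zeroMap_surjective N p hQ⟩).finrank_eq,
      Module.finrank_fintype_fun_eq_card, Sym.card_sym_eq_choose, Fintype.card_fin]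
    congr 1
    omega
  · have h1 : zeroSub N Q = ⊥ := by
      rw [eq_bot_iff]
      intro Φ hΦ
      obtain ⟨P, hP, -⟩ := unique_pairProj Q
      have h2 := zeroState_trivial hQ (not_le.1 h) hP ((isZeroState_iff hQ hP Φ.ofLp).2 hΦ)
      rw [Submodule.mem_bot]
      ext x
      exact congrFun h2 x
    rw [h1, finrank_bot]

end Vale.Agent.P359.Levels
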