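import Vale.Agent.P359.H737.Dim
import Mathlib.Analysis.InnerProductSpace.Spectrum
import Mathlib.LinearAlgebra.Matrix.Charpoly.Basic
import Mathlib.Order.LiminfLimsup
import Mathlib.Topology.Instances.EReal.Lemmas

/-!
P359: the list of the eigenvalues of `H_{N,Q}` on the fermionic space.
-/

set_option linter.all false

namespace Vale.Agent.P359.Levels

open Finset Vale.Agent.P359 Vale.Agent.P359.AllFlux

variable {N Q : ℕ} {P : Matrix (Fin (Q + 1) × Fin (Q + 1)) (Fin (Q + 1) × Fin (Q + 1)) ℂ}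

/-- the `(k+1)`-st lowest eigenvalue of the Hamiltonian -/
noncomputable def lev (hP : IsPairProj Q P) (N k : ℕ) : ℝ :=
  if h : k < Nat.choose (Q + 1) N then
    (opH_symm (N := N) hP).eigenvalues (finrank_fermions N Q) (Fin.rev ⟨k, h⟩) else 0

theorem lev_eq (hP : IsPairProj Q P) (k : Fin (Nat.choose (Q + 1) N)) :
    lev hP N k = (opH_symm (N := N) hP).eigenvalues (finrank_fermions N Q) (Fin.rev k) := by
  unfold lev
  rw [dif_pos k.2]

theorem lev_mono (hP : IsPairProj Q P) :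
    Monotone fun k : Fin (Nat.choose (Q + 1) N) => lev hP N k := by
  intro j k hjk
  simp only [lev_eq]
  exact (opH_symm (N := N) hP).eigenvalues_antitone (finrank_fermions N Q) (Fin.rev_le_rev.2 hjk)

/-- **the levels form the list of the eigenvalues** -/
theorem lev_isLevels (hP : IsPairProj Q P) :
    IsLevels N P (fun k : Fin (Nat.choose (Q + 1) N) => lev hP N k) := by
  obtain ⟨b, hb⟩ : ∃ b, b = (opH_symm (N := N) hP).eigenvectorBasis (finrank_fermions N Q) :=
    ⟨_, rfl⟩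
  refine ⟨lev_mono hP, fun k => (b (Fin.rev k)).1.ofLp, ?_, ?_, ?_, ?_⟩
  · intro k
    exact (b (Fin.rev k)).2
  · intro j k
    have h1 := orthonormal_iff_ite.1 b.orthonormal (Fin.rev j) (Fin.rev k)
    have h2 : inner ℂ (b (Fin.rev j)) (b (Fin.rev k)) =
        braket (b (Fin.rev j)).1.ofLp (b (Fin.rev k)).1.ofLp := inner_eq_braket _ _
    rw [← h2, h1]
    simp only [Fin.rev_inj]
  · intro Φ hΦ
    have h1 := b.sum_repr' (⟨WithLp.toLp 2 Φ, hΦ⟩ : Fermions N Q)
    have h2 := congrArg (fun v : Fermions N Q => v.1.ofLp) h1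
    simp only at h2
    refine h2.symm.trans ?_
    rw [← Equiv.sum_comp Fin.revPerm]
    simp only [Fin.revPerm_apply]
    rw [Submodule.coe_sum, WithLp.ofLp_sum]
    refine sum_congr rfl fun k _ => ?_
    have h3 : inner ℂ (b (Fin.rev k)) (⟨WithLp.toLp 2 Φ, hΦ⟩ : Fermions N Q) =
        braket (b (Fin.rev k)).1.ofLp Φ := inner_eq_braket _ _
    rw [h3]
    rfl
  · intro k
    have h1 := (opH_symm (N := N) hP).apply_eigenvectorBasis (finrank_fermions N Q) (Fin.rev k)
    rw [← hb] at h1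
    have h2 := congrArg (fun v : Fermions N Q => v.1.ofLp) h1
    simp only [lev_eq]
    exact h2

theorem charpoly_roots (hP : IsPairProj Q P) {D : ℕ} (b : OrthonormalBasis (Fin D) ℂ (Fermions N Q))
    (E : Fin D → ℝ) (hE : ∀ k, opH hP (b k) = ((E k : ℝ) : ℂ) • b k) :
    (LinearMap.charpoly (opH (N := N) hP)).roots =
      (univ : Finset (Fin D)).val.map (fun k => ((E k : ℝ) : ℂ)) := by
  have h1 : LinearMap.toMatrix b.toBasis b.toBasis (opH (N := N) hP) =
      Matrix.diagonal fun k => ((E k : ℝ) : ℂ) := by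
    ext i j
    rw [LinearMap.toMatrix_apply, OrthonormalBasis.coe_toBasis, hE, map_smul]
    rw [Matrix.diagonal_apply, Finsupp.smul_apply]
    have h2 : (b.toBasis.repr (b j)) i = if i = j then 1 else 0 := by
      have := b.toBasis.repr_self j
      rw [OrthonormalBasis.coe_toBasis] at this
      rw [this, Finsupp.single_apply]
      simp only [eq_comm]
    rw [h2]
    by_cases h : i = j
    · subst h
      simp
    · simp [h]
  rw [← LinearMap.charpoly_toMatrix _ b.toBasis, h1, Matrix.charpoly_diagonal,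
    Polynomial.roots_prod _ _ (by
      simp [Finset.prod_ne_zero_iff, Polynomial.X_sub_C_ne_zero])]
  simp

/-- **uniqueness of the list of the eigenvalues** -/
theorem levels_unique (hP : IsPairProj Q P) {D : ℕ} {E : Fin D → ℝ} (h : IsLevels N P E) :
    D = Nat.choose (Q + 1) N ∧ ∀ k, E k = lev hP N k := by
  obtain ⟨hmono, Ψ, h1, h2, h3, h4⟩ := h
  obtain ⟨v, hv⟩ : ∃ v : Fin D → Fermions N Q, v = fun k => ⟨WithLp.toLp 2 (Ψ k), h1 k⟩ :=
    ⟨_, rfl⟩
  have hon : Orthonormal ℂ v := by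
    rw [orthonormal_iff_ite]
    intro i j
    have h5 : inner ℂ (v i) (v j) = braket (Ψ i) (Ψ j) := by
      rw [hv]
      exact inner_eq_braket _ _
    rw [h5, h2]
  have hsp : ⊤ ≤ Submodule.span ℂ (Set.range v) := by
    intro Φ _
    have h5 : Φ = ∑ k, braket (Ψ k) Φ.1.ofLp • v k := by
      apply Subtype.ext
      have h6 := h3 Φ.1.ofLp Φ.2
      rw [Submodule.coe_sum]
      ext x
      have h7 := congrFun h6 x
      rw [WithLp.ofLp_sum]
      rw [h7]
      rw [Finset.sum_apply, Finset.sum_apply, hv]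
      rfl
    rw [h5]
    exact Submodule.sum_mem _ fun k _ => Submodule.smul_mem _ _ (Submodule.subset_span ⟨k, rfl⟩)
  obtain ⟨b, hb⟩ : ∃ b, b = OrthonormalBasis.mk hon hsp := ⟨_, rfl⟩
  have hbv : ∀ k, b k = v k := by
    intro k
    rw [hb, OrthonormalBasis.coe_mk]
  have hD : D = Nat.choose (Q + 1) N := by
    rw [← finrank_fermions N Q, Module.finrank_eq_card_basis b.toBasis, Fintype.card_fin]
  have hE : ∀ k, opH hP (b k) = ((E k : ℝ) : ℂ) • b k := by
    intro k
    rw [hbv, hv]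
    apply Subtype.ext
    ext x
    exact congrFun (h4 k) x
  refine ⟨hD, ?_⟩
  subst hD
  have h5 := charpoly_roots hP b E hE
  have h6 := charpoly_roots hP ((opH_symm (N := N) hP).eigenvectorBasis (finrank_fermions N Q))
    ((opH_symm (N := N) hP).eigenvalues (finrank_fermions N Q)) (fun k =>
      (opH_symm (N := N) hP).apply_eigenvectorBasis (finrank_fermions N Q) k)
  rw [h5] at h6
  have h7 := congrArg (Multiset.map Complex.re) h6
  rw [Multiset.map_map, Multiset.map_map] at h7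
  have h8 : (univ : Finset (Fin (Nat.choose (Q + 1) N))).val.map E =
      (univ : Finset (Fin (Nat.choose (Q + 1) N))).val.map
        ((opH_symm (N := N) hP).eigenvalues (finrank_fermions N Q)) := by
    simpa [Function.comp_def] using h7
  have h9 := map_comp_perm ((opH_symm (N := N) hP).eigenvalues (finrank_fermions N Q)) Fin.revPerm
  rw [← h9] at h8
  have h10 : Monotone (((opH_symm (N := N) hP).eigenvalues (finrank_fermions N Q)) ∘ Fin.revPerm) := by
    intro j k hjk
    exact (opH_symm (N := N) hP).eigenvalues_antitone (finrank_fermions N Q) (Fin.rev_le_rev.2 hjk)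
  have h11 := mono_unique hmono h10 h8
  intro k
  rw [lev_eq, h11]
  rfl

/-- the levels do not depend on the (unique) projection -/
theorem lev_nonneg (hP : IsPairProj Q P) (k : ℕ) : 0 ≤ lev hP N k := by
  by_cases hk : k < Nat.choose (Q + 1) N
  · obtain ⟨-, Ψ, h1, h2, h3, h4⟩ := lev_isLevels (N := N) hP
    have h5 := energy_nonneg hP (Ψ ⟨k, hk⟩)
    have h6 : braket (Ψ ⟨k, hk⟩) (((lev hP N k : ℝ) : ℂ) • Ψ ⟨k, hk⟩) = ((lev hP N k : ℝ) : ℂ) := by
      have h7 : braket (Ψ ⟨k, hk⟩) (((lev hP N k : ℝ) : ℂ) • Ψ ⟨k, hk⟩) =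
          ((lev hP N k : ℝ) : ℂ) * braket (Ψ ⟨k, hk⟩) (Ψ ⟨k, hk⟩) := by
        unfold braket
        rw [mul_sum]
        refine sum_congr rfl fun x _ => ?_
        rw [Pi.smul_apply, smul_eq_mul]
        ring
      rw [h7, h2, if_pos rfl, mul_one]
    rw [h4 ⟨k, hk⟩] at h5
    simp only at h5
    rw [h6] at h5
    exact h5
  · unfold lev
    rw [dif_neg hk]

theorem finrank_ker (hQ : 1 ≤ Q) (hP : IsPairProj Q P) :
    Module.finrank ℂ (Module.End.eigenspace (opH (N := N) hP) 0) = zeroCount N Q := by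
  rw [← finrank_zeroSub N Q hQ]
  have h1 : Submodule.map (Fermions N Q).subtype (Module.End.eigenspace (opH (N := N) hP) 0) =
      zeroSub N Q := by
    ext Φ
    rw [Submodule.mem_map]
    constructor
    · rintro ⟨Ψ, hΨ, rfl⟩
      rw [Module.End.mem_eigenspace_iff, zero_smul] at hΨ
      have h2 : pairSum P Ψ.1.ofLp = 0 := by
        have h3 := congrArg (fun v : Fermions N Q => v.1.ofLp) hΨ
        exact h3
      exact (isZeroState_iff hQ hP Ψ.1.ofLp).1 ⟨Ψ.2, h2⟩
    · intro hΦ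
      refine ⟨⟨Φ, hΦ.1⟩, ?_, rfl⟩
      rw [Module.End.mem_eigenspace_iff, zero_smul]
      have h2 := ((isZeroState_iff hQ hP Φ.ofLp).2 hΦ).2
      apply Subtype.ext
      ext x
      exact congrFun h2 x
  rw [← h1]
  exact (LinearEquiv.finrank_eq (Submodule.equivMapOfInjective (Fermions N Q).subtype
    (Submodule.injective_subtype _) _))

/-- **the zero levels** -/
theorem lev_eq_zero_iff (hQ : 1 ≤ Q) (hP : IsPairProj Q P) {k : ℕ}
    (hk : k < Nat.choose (Q + 1) N) : lev hP N k = 0 ↔ k < zeroCount N Q := by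
  classical
  obtain ⟨S, hS⟩ : ∃ S : Finset (Fin (Nat.choose (Q + 1) N)),
      S = univ.filter fun j : Fin (Nat.choose (Q + 1) N) => lev hP N (j : ℕ) = 0 := ⟨_, rfl⟩
  have hcard : S.card = zeroCount N Q := by
    rw [← finrank_ker hQ hP, ← (opH_symm (N := N) hP).card_filter_eigenvalues_eq
      (finrank_fermions N Q) (0 : ℂ), hS]
    refine Finset.card_equiv Fin.revPerm fun j => ?_
    simp only [Finset.mem_filter, Finset.mem_univ, true_and, Fin.revPerm_apply, lev_eq]
    simp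
  have hlow : ∀ i j : Fin (Nat.choose (Q + 1) N), i ≤ j → j ∈ S → i ∈ S := by
    intro i j hij hj
    rw [hS, Finset.mem_filter] at hj ⊢
    refine ⟨Finset.mem_univ _, le_antisymm ?_ (lev_nonneg hP _)⟩
    rw [← hj.2]
    exact lev_mono hP hij
  constructor
  · intro h
    have h1 : Finset.Iic (⟨k, hk⟩ : Fin (Nat.choose (Q + 1) N)) ⊆ S := by
      intro i hi
      refine hlow i ⟨k, hk⟩ (Finset.mem_Iic.1 hi) ?_
      rw [hS, Finset.mem_filter]
      exact ⟨Finset.mem_univ _, h⟩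
    have h2 := Finset.card_le_card h1
    rw [Fin.card_Iic, hcard] at h2
    exact h2
  · intro h
    by_contra h0
    have h1 : S ⊆ Finset.Iio (⟨k, hk⟩ : Fin (Nat.choose (Q + 1) N)) := by
      intro i hi
      rw [Finset.mem_Iio]
      by_contra hlt
      have h2 := hlow ⟨k, hk⟩ i (not_lt.1 hlt) hi
      rw [hS, Finset.mem_filter] at h2
      exact h0 h2.2
    have h2 := Finset.card_le_card h1
    rw [Fin.card_Iio, hcard] at h2
    simp only at h2
    omega

/-- **the nonzero levels** are bounded below by every gap above zero -/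
theorem lev_gap (hP : IsPairProj Q P) {δ : ℝ} (hg : GapAboveZero δ N Q) {k : ℕ}
    (hk : k < Nat.choose (Q + 1) N) (h0 : lev hP N k ≠ 0) : δ ≤ lev hP N k := by
  obtain ⟨-, Ψ, h1, h2, h3, h4⟩ := lev_isLevels (N := N) hP
  obtain ⟨Ψ₀, Ψ₁, e1, e2, e3, e4⟩ := hg P hP (Ψ ⟨k, hk⟩) (h1 _)
  obtain ⟨μ, hμ⟩ : ∃ μ, μ = lev hP N k := ⟨_, rfl⟩
  have h4' : pairSum P (Ψ ⟨k, hk⟩) = ((μ : ℝ) : ℂ) • Ψ ⟨k, hk⟩ := by
    rw [hμ]
    exact h4 ⟨k, hk⟩
  rw [← hμ] at h0 ⊢
  have hsm : ∀ Φ : (Fin N → Fin (Q + 1)) → ℂ, braket Φ (((μ : ℝ) : ℂ) • Ψ ⟨k, hk⟩) =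
      ((μ : ℝ) : ℂ) * braket Φ (Ψ ⟨k, hk⟩) := by
    intro Φ
    unfold braket
    rw [mul_sum]
    refine sum_congr rfl fun x _ => ?_
    rw [Pi.smul_apply, smul_eq_mul]
    ring
  -- the zero part is orthogonal to the eigenvector
  have h5 : braket Ψ₀ (Ψ ⟨k, hk⟩) = 0 := by
    have h6 := braket_pairSum hP Ψ₀ (Ψ ⟨k, hk⟩)
    rw [h4', hsm, e2.2] at h6
    have h7 : braket (0 : (Fin N → Fin (Q + 1)) → ℂ) (Ψ ⟨k, hk⟩) = 0 := by
      unfold braket
      simp
    rw [h7] at h6
    rcases mul_eq_zero.1 h6 with h8 | h8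
    · exact absurd (Complex.ofReal_eq_zero.1 h8) h0
    · exact h8
  have h6 : braket Ψ₀ Ψ₀ = 0 := by
    have h7 : braket Ψ₀ (Ψ ⟨k, hk⟩) = braket Ψ₀ Ψ₀ + braket Ψ₀ Ψ₁ := by
      rw [e1]
      unfold braket
      rw [← sum_add_distrib]
      refine sum_congr rfl fun x _ => ?_
      rw [Pi.add_apply, mul_add]
    rw [h5, e3 Ψ₀ e2, add_zero] at h7
    exact h7.symm
  have h7 : Ψ₀ = 0 := by
    have h8 : inner ℂ (WithLp.toLp 2 Ψ₀ : Tensors N Q) (WithLp.toLp 2 Ψ₀ : Tensors N Q) = 0 := by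
      rw [inner_eq_braket]
      exact h6
    have h9 := inner_self_eq_zero.1 h8
    funext x
    exact congrArg (fun v : Tensors N Q => v x) h9
  rw [h7, zero_add] at e1
  rw [← e1] at e4
  rw [h4', hsm, h2, if_pos rfl, mul_one] at e4
  simpa using e4

/-- the levels at a given flux, for the unique projection -/
noncomputable def energy (N Q k : ℕ) : ℝ := lev (unique_pairProj Q).choose_spec.1 N k

theorem lev_eq_energy (hP : IsPairProj Q P) (k : ℕ) : lev hP N k = energy N Q k := by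
  unfold energy
  have h : P = (unique_pairProj Q).choose := (unique_pairProj Q).unique hP
    (unique_pairProj Q).choose_spec.1
  subst h
  rfl

theorem energy_isLevels (hP : IsPairProj Q P) :
    IsLevels N P (fun k : Fin (Nat.choose (Q + 1) N) => energy N Q k) := by
  have h := lev_isLevels (N := N) hP
  simp only [lev_eq_energy hP] at h
  exact h

theorem energy_unique (hP : IsPairProj Q P) {D : ℕ} {E : Fin D → ℝ} (h : IsLevels N P E) :
    D = Nat.choose (Q + 1) N ∧ ∀ k, E k = energy N Q k := by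
  obtain ⟨h1, h2⟩ := levels_unique hP h
  exact ⟨h1, fun k => (h2 k).trans (lev_eq_energy hP _)⟩

theorem energy_eq_zero_iff (hQ : 1 ≤ Q) {k : ℕ} (hk : k < Nat.choose (Q + 1) N) :
    energy N Q k = 0 ↔ k < zeroCount N Q := by
  obtain ⟨P, hP, -⟩ := unique_pairProj Q
  rw [← lev_eq_energy hP]
  exact lev_eq_zero_iff hQ hP hk

theorem energy_gap {δ : ℝ} (hQ : 1 ≤ Q) (hg : GapAboveZero δ N Q) {k : ℕ}
    (hk : k < Nat.choose (Q + 1) N) (h0 : zeroCount N Q ≤ k) : δ ≤ energy N Q k := by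
  obtain ⟨P, hP, -⟩ := unique_pairProj Q
  rw [← lev_eq_energy hP]
  refine lev_gap hP hg hk fun h => ?_
  have := (lev_eq_zero_iff hQ hP hk).1 h
  omega

theorem zeroCount_laughlin (N : ℕ) : zeroCount N (3 * (N - 1)) = 1 := by
  unfold zeroCount
  rw [if_pos le_rfl, Nat.sub_self, zero_add, Nat.choose_self]

theorem two_le_dim {N : ℕ} (hN : 2 ≤ N) : 2 ≤ Nat.choose (3 * (N - 1) + 1) N := by
  have h1 : Nat.choose (N + 1) N ≤ Nat.choose (3 * (N - 1) + 1) N :=
    Nat.choose_le_choose N (by omega)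
  have h2 : Nat.choose (N + 1) N = N + 1 := Nat.choose_succ_self_right N
  omega

theorem energy_laughlin_zero {N : ℕ} (hN : 2 ≤ N) : energy N (3 * (N - 1)) 0 = 0 := by
  have h1 := two_le_dim hN
  rw [energy_eq_zero_iff (by omega) (by omega), zeroCount_laughlin]
  exact one_pos

theorem gap_laughlin {N : ℕ} (hN : 2 ≤ N) {δ : ℝ} (hg : GapAboveZero δ N (3 * (N - 1))) :
    δ ≤ energy N (3 * (N - 1)) 1 - energy N (3 * (N - 1)) 0 := by
  have h1 := two_le_dim hN
  rw [energy_laughlin_zero hN, sub_zero]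
  exact energy_gap (by omega) hg (by omega) (zeroCount_laughlin N).le

/-- the zero-energy states at the Laughlin flux -/
theorem zero_iff_laughlin {N : ℕ} (hN : 2 ≤ N)
    {P : Matrix (Fin (3 * (N - 1) + 1) × Fin (3 * (N - 1) + 1))
      (Fin (3 * (N - 1) + 1) × Fin (3 * (N - 1) + 1)) ℂ} (hP : IsPairProj (3 * (N - 1)) P)
    (Φ : (Fin N → Fin (3 * (N - 1) + 1)) → ℂ) :
    (IsFermionic Φ ∧ pairSum P Φ = 0) ↔ ∃ c : ℂ, Φ = c • laughlinVec N := by
  have h1 := isZeroState_iff (by omega) hP Φ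
  rw [zeroSub_laughlin, Submodule.mem_span_singleton] at h1
  refine h1.trans ?_
  constructor
  · rintro ⟨c, hc⟩
    refine ⟨c, ?_⟩
    rw [laughlin_eq] at hc
    funext x
    exact congrArg (fun v : Tensors N (3 * (N - 1)) => v x) hc.symm
  · rintro ⟨c, rfl⟩
    refine ⟨c, ?_⟩
    rw [laughlin_eq]
    rfl

/-- the limit inferior of the spectral gaps -/
theorem liminf_gap : ((1 / 50 : ℝ) : EReal) ≤ Filter.liminf
    (fun N : ℕ => ((energy N (3 * (N - 1)) 1 - energy N (3 * (N - 1)) 0 : ℝ) : EReal))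
      Filter.atTop := by
  refine le_of_forall_lt fun a ha => ?_
  obtain ⟨δ, h1, h2⟩ := EReal.lt_iff_exists_real_btwn.1 ha
  have hδ : δ < 1 / 50 := by exact_mod_cast h2
  refine lt_of_lt_of_le h1 ?_
  obtain ⟨Q₀, hQ⟩ := asymptotic_gap δ hδ
  refine Filter.le_liminf_of_le (by isBoundedDefault) ?_
  filter_upwards [Filter.eventually_ge_atTop (Q₀ + 2)] with N hN
  have h3 := gap_laughlin (N := N) (by omega) (hQ (3 * (N - 1)) (by omega) N)
  exact_mod_cast h3

end Vale.Agent.P359.Levels
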