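import Vale.Agent.P359.H329.Main
import Vale.Agent.P359.H737.Defs

/-!
P359: `H_{N,Q}` is a symmetric operator of the fermionic space.
-/

set_option linter.all false

namespace Vale.Agent.P359.Levels

open Finset Vale.Agent.P359 Vale.Agent.P359.AllFlux
open scoped Kronecker Matrix

variable {N Q : ℕ} {P : Matrix (Fin (Q + 1) × Fin (Q + 1)) (Fin (Q + 1) × Fin (Q + 1)) ℂ}

theorem onPair_swap (A : Matrix (Fin (Q + 1)) (Fin (Q + 1)) ℂ) :
    (onPair A).submatrix (Equiv.prodComm _ _) (Equiv.prodComm _ _) = onPair A := by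
  ext ⟨a, b⟩ ⟨c, d⟩
  show A b d * (1 : Matrix (Fin (Q + 1)) (Fin (Q + 1)) ℂ) a c +
      (1 : Matrix (Fin (Q + 1)) (Fin (Q + 1)) ℂ) b d * A a c =
    A a c * (1 : Matrix (Fin (Q + 1)) (Fin (Q + 1)) ℂ) b d +
      (1 : Matrix (Fin (Q + 1)) (Fin (Q + 1)) ℂ) a c * A b d
  ring

theorem casimir_swap : (casimir Q).submatrix (Equiv.prodComm _ _) (Equiv.prodComm _ _) =
    casimir Q := by
  have hmul : ∀ A B : Matrix (Fin (Q + 1) × Fin (Q + 1)) (Fin (Q + 1) × Fin (Q + 1)) ℂ,
      (A * B).submatrix (Equiv.prodComm _ _) (Equiv.prodComm _ _) =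
        A.submatrix (Equiv.prodComm _ _) (Equiv.prodComm _ _) *
          B.submatrix (Equiv.prodComm _ _) (Equiv.prodComm _ _) := fun A B =>
    (Matrix.submatrix_mul_equiv A B _ _ _).symm
  have hadd : ∀ A B : Matrix (Fin (Q + 1) × Fin (Q + 1)) (Fin (Q + 1) × Fin (Q + 1)) ℂ,
      (A + B).submatrix (Equiv.prodComm _ _) (Equiv.prodComm _ _) =
        A.submatrix (Equiv.prodComm _ _) (Equiv.prodComm _ _) +
          B.submatrix (Equiv.prodComm _ _) (Equiv.prodComm _ _) := fun _ _ => rfl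
  have hsm : ∀ (c : ℂ) (A : Matrix (Fin (Q + 1) × Fin (Q + 1)) (Fin (Q + 1) × Fin (Q + 1)) ℂ),
      (c • A).submatrix (Equiv.prodComm _ _) (Equiv.prodComm _ _) =
        c • A.submatrix (Equiv.prodComm _ _) (Equiv.prodComm _ _) := fun _ _ => rfl
  unfold casimir
  rw [hadd, hsm, hadd, hmul, hmul, hmul, onPair_swap, onPair_swap, onPair_swap]

theorem isPairProj_swap (hP : IsPairProj Q P) :
    IsPairProj Q (P.submatrix (Equiv.prodComm _ _) (Equiv.prodComm _ _)) := by
  obtain ⟨h1, h2, h3⟩ := hP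
  refine ⟨?_, ?_, ?_⟩
  · rw [Matrix.submatrix_mul_equiv, h1]
  · rw [Matrix.conjTranspose_submatrix, h2]
  · intro ψ
    have hc : casimir Q *ᵥ ψ = (casimir Q *ᵥ (ψ ∘ (Equiv.prodComm _ _).symm)) ∘
        (Equiv.prodComm _ _) := by
      conv_lhs => rw [← casimir_swap]
      rw [Matrix.submatrix_mulVec_equiv]
    rw [Matrix.submatrix_mulVec_equiv, hc]
    have h4 := h3 (ψ ∘ (Equiv.prodComm (Fin (Q + 1)) (Fin (Q + 1))).symm)
    have e1 : ∀ f : Fin (Q + 1) × Fin (Q + 1) → ℂ, ∀ g : Fin (Q + 1) × Fin (Q + 1) → ℂ,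
        f ∘ (Equiv.prodComm _ _) = g ↔ f = g ∘ (Equiv.prodComm _ _).symm := by
      intro f g
      constructor
      · rintro rfl
        funext x
        simp
      · rintro rfl
        funext x
        simp
    rw [e1, e1]
    exact h4

theorem P_swap (hP : IsPairProj Q P) (a b c d : Fin (Q + 1)) : P (b, a) (d, c) = P (a, b) (c, d) := by
  have h := (unique_pairProj Q).unique (isPairProj_swap hP) hP
  exact congrFun (congrFun h (a, b)) (c, d)

theorem sum_pairs {f : Fin N → Fin N → ℂ} (hf : ∀ i j, i ≠ j → f i j = f j i) :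
    2 * ∑ i, ∑ j ∈ Ioi i, f i j = ∑ i, ∑ j, if i = j then 0 else f i j := by
  have h1 : ∑ i, ∑ j ∈ Ioi i, f i j = ∑ i, ∑ j, if i < j then f i j else 0 := by
    refine sum_congr rfl fun i _ => ?_
    rw [← sum_filter]
    refine sum_congr ?_ fun _ _ => rfl
    ext j
    simp
  have h2 : ∑ i, ∑ j, (if i < j then f i j else 0) = ∑ i, ∑ j, if j < i then f i j else 0 := by
    rw [sum_comm]
    refine sum_congr rfl fun i _ => sum_congr rfl fun j _ => ?_
    split_ifs with h
    · exact hf _ _ h.ne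
    · rfl
  rw [two_mul, h1]
  conv_lhs => rhs; rw [h2]
  rw [← sum_add_distrib]
  refine sum_congr rfl fun i _ => ?_
  rw [← sum_add_distrib]
  refine sum_congr rfl fun j _ => ?_
  rcases lt_trichotomy i j with h | h | h
  · rw [if_pos h, if_neg h.not_gt, if_neg h.ne, add_zero]
  · rw [if_neg (by omega), if_neg (by omega), if_pos h, add_zero]
  · rw [if_neg h.not_gt, if_pos h, if_neg h.ne', zero_add]

/-- one term of the Hamiltonian -/
noncomputable def gT (P : Matrix (Fin (Q + 1) × Fin (Q + 1)) (Fin (Q + 1) × Fin (Q + 1)) ℂ)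
    (Ψ : (Fin N → Fin (Q + 1)) → ℂ) (x : Fin N → Fin (Q + 1)) (i j : Fin N) : ℂ :=
  ∑ a, ∑ b, P (x i, x j) (a, b) * Ψ (Function.update (Function.update x i a) j b)

theorem pairSum_gT (Ψ : (Fin N → Fin (Q + 1)) → ℂ) (x : Fin N → Fin (Q + 1)) :
    pairSum P Ψ x = ∑ i, ∑ j ∈ Ioi i, gT P Ψ x i j := rfl

theorem gT_symm (hP : IsPairProj Q P) (Ψ : (Fin N → Fin (Q + 1)) → ℂ) (x : Fin N → Fin (Q + 1))
    (i j : Fin N) (hij : i ≠ j) : gT P Ψ x i j = gT P Ψ x j i := by
  unfold gT
  rw [sum_comm]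
  refine sum_congr rfl fun b _ => sum_congr rfl fun a _ => ?_
  rw [P_swap hP, Function.update_comm hij]

theorem update_comp (x : Fin N → Fin (Q + 1)) (σ : Equiv.Perm (Fin N)) (i : Fin N)
    (a : Fin (Q + 1)) : Function.update (x ∘ σ) i a = Function.update x (σ i) a ∘ σ := by
  funext k
  by_cases hk : k = i
  · subst hk
    simp
  · rw [Function.update_of_ne hk, Function.comp_apply, Function.comp_apply,
      Function.update_of_ne (fun h => hk (σ.injective h))]

theorem gT_perm {Ψ : (Fin N → Fin (Q + 1)) → ℂ} (hΨ : IsFermionic Ψ) (σ : Equiv.Perm (Fin N))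
    (x : Fin N → Fin (Q + 1)) (i j : Fin N) :
    gT P Ψ (x ∘ σ) i j = ((Equiv.Perm.sign σ : ℤ) : ℂ) * gT P Ψ x (σ i) (σ j) := by
  unfold gT
  rw [mul_sum]
  refine sum_congr rfl fun a _ => ?_
  rw [mul_sum]
  refine sum_congr rfl fun b _ => ?_
  rw [update_comp, update_comp, hΨ σ]
  simp only [Function.comp_apply]
  ring

/-- the Hamiltonian preserves the fermionic space -/
theorem pairSum_fermionic (hP : IsPairProj Q P) {Ψ : (Fin N → Fin (Q + 1)) → ℂ}
    (hΨ : IsFermionic Ψ) : IsFermionic (pairSum P Ψ) := by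
  intro σ x
  have h2 : (2 : ℂ) ≠ 0 := two_ne_zero
  have key : (2 : ℂ) * pairSum P Ψ (x ∘ σ) =
      2 * (((Equiv.Perm.sign σ : ℤ) : ℂ) * pairSum P Ψ x) := by
    rw [pairSum_gT, pairSum_gT, sum_pairs (gT_symm hP Ψ (x ∘ σ)), mul_left_comm,
      sum_pairs (gT_symm hP Ψ x)]
    have h3 : ∑ i, ∑ j, (if i = j then 0 else gT P Ψ (x ∘ σ) i j) =
        ∑ i, ∑ j, ((Equiv.Perm.sign σ : ℤ) : ℂ) *
          (if σ i = σ j then 0 else gT P Ψ x (σ i) (σ j)) := by
      refine sum_congr rfl fun i _ => sum_congr rfl fun j _ => ?_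
      by_cases h : i = j
      · rw [if_pos h, if_pos (by rw [h]), mul_zero]
      · rw [if_neg h, if_neg (fun h' => h (σ.injective h')), gT_perm hΨ]
    rw [h3, mul_sum, ← Equiv.sum_comp σ (fun i => ((Equiv.Perm.sign σ : ℤ) : ℂ) *
      ∑ j, (if i = j then 0 else gT P Ψ x i j))]
    refine sum_congr rfl fun i _ => ?_
    rw [mul_sum, ← Equiv.sum_comp σ (fun j => ((Equiv.Perm.sign σ : ℤ) : ℂ) *
      (if σ i = j then 0 else gT P Ψ x (σ i) j))]
  exact mul_left_cancel₀ h2 key

/-- the involution behind the symmetry of one term -/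
def inv2 (i j : Fin N) (hij : i ≠ j) :
    ((Fin N → Fin (Q + 1)) × (Fin (Q + 1) × Fin (Q + 1))) ≃
      ((Fin N → Fin (Q + 1)) × (Fin (Q + 1) × Fin (Q + 1))) where
  toFun y := (Function.update (Function.update y.1 i y.2.1) j y.2.2, (y.1 i, y.1 j))
  invFun y := (Function.update (Function.update y.1 i y.2.1) j y.2.2, (y.1 i, y.1 j))
  left_inv := by
    rintro ⟨x, a, b⟩
    simp only [Prod.mk.injEq]
    refine ⟨?_, ?_, ?_⟩
    · funext k
      by_cases hk : k = j
      · subst hk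
        simp
      · rw [Function.update_of_ne hk]
        by_cases hk' : k = i
        · subst hk'
          simp
        · rw [Function.update_of_ne hk', Function.update_of_ne hk, Function.update_of_ne hk']
    · rw [Function.update_of_ne hij, Function.update_self]
    · rw [Function.update_self]
  right_inv := by
    rintro ⟨x, a, b⟩
    simp only [Prod.mk.injEq]
    refine ⟨?_, ?_, ?_⟩
    · funext k
      by_cases hk : k = j
      · subst hk
        simp
      · rw [Function.update_of_ne hk]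
        by_cases hk' : k = i
        · subst hk'
          simp
        · rw [Function.update_of_ne hk', Function.update_of_ne hk, Function.update_of_ne hk']
    · rw [Function.update_of_ne hij, Function.update_self]
    · rw [Function.update_self]

theorem braket_gT (hP : P.conjTranspose = P) (Φ Ψ : (Fin N → Fin (Q + 1)) → ℂ) {i j : Fin N}
    (hij : i ≠ j) : ∑ x, star (Φ x) * gT P Ψ x i j = ∑ x, star (gT P Φ x i j) * Ψ x := by
  have hstar : ∀ p q, star (P p q) = P q p := by
    intro p q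
    conv_rhs => rw [← hP]
    rfl
  have h1 : ∑ x, star (Φ x) * gT P Ψ x i j =
      ∑ y : (Fin N → Fin (Q + 1)) × (Fin (Q + 1) × Fin (Q + 1)),
        star (Φ y.1) * (P (y.1 i, y.1 j) (y.2.1, y.2.2) *
          Ψ (Function.update (Function.update y.1 i y.2.1) j y.2.2)) := by
    rw [Fintype.sum_prod_type]
    refine sum_congr rfl fun x _ => ?_
    rw [Fintype.sum_prod_type, gT, mul_sum]
    refine sum_congr rfl fun a _ => ?_
    rw [mul_sum]
  have h2 : ∑ x, star (gT P Φ x i j) * Ψ x =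
      ∑ y : (Fin N → Fin (Q + 1)) × (Fin (Q + 1) × Fin (Q + 1)),
        star (P (y.1 i, y.1 j) (y.2.1, y.2.2) *
          Φ (Function.update (Function.update y.1 i y.2.1) j y.2.2)) * Ψ y.1 := by
    rw [Fintype.sum_prod_type]
    refine sum_congr rfl fun x _ => ?_
    rw [Fintype.sum_prod_type, gT, star_sum, sum_mul]
    refine sum_congr rfl fun a _ => ?_
    rw [star_sum, sum_mul]
  rw [h1, h2, ← Equiv.sum_comp (inv2 i j hij)]
  refine sum_congr rfl fun y _ => ?_
  have e := (inv2 (Q := Q) i j hij).left_inv y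
  simp only [inv2, Equiv.coe_fn_mk] at e ⊢
  have e1 := congrArg Prod.fst e
  have e2 := congrArg Prod.snd e
  simp only at e1 e2
  obtain ⟨x, a, b⟩ := y
  simp only at e1 e2 ⊢
  rw [e1]
  have e3 : Function.update (Function.update x i a) j b i = a := by
    rw [Function.update_of_ne hij, Function.update_self]
  have e4 : Function.update (Function.update x i a) j b j = b := by
    rw [Function.update_self]
  rw [e3, e4, star_mul', hstar]
  ring

/-- **symmetry of the Hamiltonian** -/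
theorem braket_pairSum (hP : IsPairProj Q P) (Φ Ψ : (Fin N → Fin (Q + 1)) → ℂ) :
    braket Φ (pairSum P Ψ) = braket (pairSum P Φ) Ψ := by
  unfold braket
  have h1 : ∑ x, star (Φ x) * pairSum P Ψ x =
      ∑ i, ∑ j ∈ Ioi i, ∑ x, star (Φ x) * gT P Ψ x i j := by
    rw [sum_congr rfl fun x _ => by rw [pairSum_gT, mul_sum], sum_comm]
    refine sum_congr rfl fun i _ => ?_
    rw [sum_congr rfl fun x _ => by rw [mul_sum], sum_comm]
  have h2 : ∑ x, star (pairSum P Φ x) * Ψ x =
      ∑ i, ∑ j ∈ Ioi i, ∑ x, star (gT P Φ x i j) * Ψ x := by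
    rw [sum_congr rfl fun x _ => by rw [pairSum_gT, star_sum, sum_mul], sum_comm]
    refine sum_congr rfl fun i _ => ?_
    rw [sum_congr rfl fun x _ => by rw [star_sum, sum_mul], sum_comm]
  rw [h1, h2]
  refine sum_congr rfl fun i _ => sum_congr rfl fun j hj => ?_
  exact braket_gT hP.2.1 Φ Ψ (mem_Ioi.1 hj).ne

/-- the Hamiltonian as an operator of the fermionic space -/
noncomputable def opH (hP : IsPairProj Q P) : Fermions N Q →ₗ[ℂ] Fermions N Q where
  toFun Ψ := ⟨WithLp.toLp 2 (pairSum P Ψ.1.ofLp), pairSum_fermionic hP Ψ.2⟩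
  map_add' := by
    intro Φ Ψ
    ext x
    show pairSum P (fun y => Φ.1.ofLp y + Ψ.1.ofLp y) x = pairSum P Φ.1.ofLp x + pairSum P Ψ.1.ofLp x
    simp only [pairSum, mul_add, sum_add_distrib]
  map_smul' := by
    intro c Φ
    ext x
    show pairSum P (fun y => c * Φ.1.ofLp y) x = c * pairSum P Φ.1.ofLp x
    simp only [pairSum, mul_sum]
    refine sum_congr rfl fun i _ => sum_congr rfl fun j _ => sum_congr rfl fun a _ =>
      sum_congr rfl fun b _ => ?_
    ring

theorem opH_apply (hP : IsPairProj Q P) (Ψ : Fermions N Q) :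
    (opH hP Ψ).1.ofLp = pairSum P Ψ.1.ofLp := rfl

theorem opH_symm (hP : IsPairProj Q P) :
    LinearMap.IsSymmetric (𝕜 := ℂ) (E := Fermions N Q) (opH hP) := by
  intro Φ Ψ
  show inner ℂ (opH hP Φ).1 Ψ.1 = inner ℂ Φ.1 (opH hP Ψ).1
  rw [inner_eq_braket, inner_eq_braket, opH_apply, opH_apply]
  exact (braket_pairSum hP _ _).symm

/-- positivity -/
theorem energy_nonneg (hP : IsPairProj Q P) (Ψ : (Fin N → Fin (Q + 1)) → ℂ) :
    0 ≤ (braket Ψ (pairSum P Ψ)).re := by
  have h1 := re_inner_hamiltonian (WithLp.toLp 2 Ψ : Tensors N Q)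
  rw [pairSum_eq hP, inner_eq_braket] at h1
  change (braket Ψ (pairSum P Ψ)).re = _ at h1
  rw [h1]
  refine sum_nonneg fun i _ => sum_nonneg fun j _ => ?_
  positivity

end Vale.Agent.P359.Levels
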